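import Vale.Agent.P015.R2.H116.Defs

/-! Soft weights: definitions and statements for the two-level contradiction. -/

namespace Vale.Agent.P015.H141

open Finset Vale.Agent.P006.CLS Vale.Agent.P015.H222 Vale.Agent.P015.R2.H116

/-- laws on the residue classes modulo the primes of `P`, bounded by `Λ / p` -/
structure Law (Λ : ℝ) (P : Finset ℕ) (q : ∀ p : ℕ, ZMod p → ℝ) : Prop where
  nonneg : ∀ p ∈ P, ∀ c : ZMod p, 0 ≤ q p c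
  one : ∀ p ∈ P, ∑ c ∈ range p, q p (c : ZMod p) = 1
  sup : ∀ p ∈ P, ∀ c : ZMod p, (p : ℝ) * q p c ≤ Λ

/-- value of the law at the class of the point `w` -/
def qa (r : ℕ → ℤ) (q : ∀ p : ℕ, ZMod p → ℝ) (p : ℕ) (w : ℤ × ℤ) : ℝ :=
  q p ((lf (r p) w : ℤ) : ZMod p)

/-- primes in `[Q / 2, Q]` with chosen roots of `-1`, many of them -/
structure Lev (Λ : ℝ) (r : ℕ → ℤ) (Q : ℕ) (P : Finset ℕ) : Prop where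
  rts : Rts r P
  rng : ∀ p ∈ P, Q ≤ 2 * p ∧ p ≤ Q
  many : (Q : ℝ) ≤ Λ * P.card

/-- Soft version of `L1`: every level has large coefficients. -/
def SoftL1 : Prop := ∃ a : ℕ, ∀ (Λ : ℝ) (W : Finset (ℤ × ℤ)) (K Q : ℕ), Cv W K Λ →
    ∀ (r : ℕ → ℤ) (P : Finset ℕ), Lev Λ r Q P →
    ∀ q : (∀ p : ℕ, ZMod p → ℝ), Law Λ P q → Λ ^ a ≤ Q → 16 * Q ^ 2 ≤ K →
    ∀ f : ℤ × ℤ → ℂ, (∀ w, ‖f w‖ ≤ 1) →
    (∀ p ∈ P, (W.card : ℝ) ≤ Λ * ‖∑ w ∈ W, f w * ((1 - p * qa r q p w : ℝ) : ℂ)‖) →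
    ∃ P' ⊆ P, P.card ≤ 2 * P'.card ∧ ∀ p ∈ P', ∃ c ∈ Icc 1 (p - 1),
      (W.card : ℝ) ≤ Λ ^ a * ‖∑ w ∈ W, f w * e2 (fx ⟨p, c⟩) (fy r ⟨p, c⟩) w‖

/-- The two-level contradiction: a curve-like set cannot almost avoid spread laws at two
separated levels. -/
def TwoLevel : Prop := ∃ A : ℕ, ∀ (Λ : ℝ) (W : Finset (ℤ × ℤ)) (K Q₀ Q : ℕ), Cv W K Λ →
    ∀ (r : ℕ → ℤ) (P₀ P : Finset ℕ) (q₀ q : ∀ p : ℕ, ZMod p → ℝ),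
    Lev Λ r Q₀ P₀ → Lev Λ r Q P → Law Λ P₀ q₀ → Law Λ P q →
    (∀ p ∈ P₀, 8 * p * ∑ w ∈ W, qa r q₀ p w ≤ W.card) →
    (∀ p ∈ P, 8 * p * ∑ w ∈ W, qa r q p w ≤ W.card) →
    Λ ^ A ≤ Q₀ → Q₀ ^ 3 ≤ Q → Q ^ 4 ≤ K → False

/-- upper regular set with few cells -/
structure Up (W : Finset (ℤ × ℤ)) (K : ℕ) (Λ : ℝ) : Prop where
  pos : 1 ≤ K
  ten : 10 ≤ Λ
  c0 : C0 ≤ Λ
  sub : ∀ w ∈ W, w ∈ box K
  size : (K : ℝ) ≤ Λ * W.card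
  up : ∀ z : ℤ × ℤ, ∀ m : ℕ, 1 ≤ m → m ≤ K →
    ((W.filter (fun w => w - z ∈ box m)).card : ℝ) ≤ Λ * m
  cells : ∀ m : ℕ, 1 ≤ m → m ≤ K → (m : ℝ) * (W.image (R2.H116.cell m)).card ≤ Λ * K
  lg : (Nat.log 2 K : ℝ) + 1 ≤ Λ

end Vale.Agent.P015.H141
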