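import Vale.Agent.P015.R2.H731.P2
import Vale.Agent.P015.H141.Defs

/-! From frequencies at two levels to the coupling inequality for Gaussian primes. -/

namespace Vale.Agent.P015.H141

open Finset Vale.Agent.P006.CLS Vale.Agent.P015.H222 Vale.Agent.P015.R2.H116
  Vale.Agent.P015.R2.H731

theorem bridge2 {Λ : ℝ} (hΛ10 : 10 ≤ Λ) {W : Finset (ℤ × ℤ)} {Q0 Q : ℕ} (hQQ : 2 * Q0 < Q)
    {r : ℕ → ℤ} {P0' P' : Finset ℕ} (h0 : Lev Λ r Q0 P0') (h1 : Lev Λ r Q P')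
    {c0 c1 : ℕ → ℕ} (hc0m : ∀ p ∈ P0', c0 p ∈ Icc 1 (p - 1)) (hc1m : ∀ p ∈ P', c1 p ∈ Icc 1 (p - 1))
    (hρ : ∀ ρ ∈ P', (W.card : ℝ) * P0'.card ≤ Λ * ∑ p ∈ P0',
      ‖hg W (fx ⟨ρ, c1 ρ⟩ - fx ⟨p, c0 p⟩) (fy r ⟨ρ, c1 ρ⟩ - fy r ⟨p, c0 p⟩)‖) :
    ∃ (Pi0 Pi : Finset GaussianInt) (α : GaussianInt → GaussianInt), Lvl Λ Q0 Pi0 α ∧
      Lvl Λ Q Pi α ∧ (W.card : ℝ) * Pi0.card * Pi.card ≤
        Λ * ∑ π ∈ Pi0, ∑ ρ ∈ Pi, ‖hc W (th α ρ - th α π)‖ := by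
  classical
  set cc : ℕ → ℕ := fun p => if p ∈ P0' then c0 p else c1 p with hcc
  have hdisj : ∀ p ∈ P', p ∉ P0' := by
    intro p hp hp0
    have h2 := (h1.rng p hp).1
    have h3 := (h0.rng p hp0).2
    omega
  have hcc0 : ∀ p ∈ P0', cc p = c0 p := fun p hp => if_pos hp
  have hcc1 : ∀ p ∈ P', cc p = c1 p := fun p hp => if_neg (hdisj p hp)
  have hbr : ∀ p ∈ P0' ∪ P', ∃ πα : GaussianInt × GaussianInt, Prime πα.1 ∧ πα.1.norm = p ∧
      ¬ πα.1 ∣ πα.2 ∧ GaussianInt.toComplex πα.2 / GaussianInt.toComplex πα.1 =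
        ((cc p : ℤ) : ℂ) * (1 - Complex.I * r p) / p := by
    intro p hp
    have hrts : p.Prime ∧ (p : ℤ) ∣ r p ^ 2 + 1 := by
      rcases Finset.mem_union.1 hp with h | h
      · exact h0.rts p h
      · exact h1.rts p h
    have hcp : cc p ∈ Icc 1 (p - 1) := by
      rcases Finset.mem_union.1 hp with h | h
      · rw [hcc0 p h]; exact hc0m p h
      · rw [hcc1 p h]; exact hc1m p h
    rw [Finset.mem_Icc] at hcp
    obtain ⟨π, α, h1, h2, h3, h4⟩ := bridge hrts.1 hrts.2 (c := (cc p : ℤ)) (by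
      intro hd
      have h5 : p ∣ cc p := by exact_mod_cast hd
      have := Nat.le_of_dvd (by omega) h5
      have := hrts.1.pos
      omega)
    exact ⟨(π, α), h1, h2, h3, h4⟩
  choose! πα hπp hπn hπd hπc using hbr
  set al : GaussianInt → GaussianInt := fun z => (πα z.norm.toNat).2 with hal
  have hal1 : ∀ p ∈ P0' ∪ P', al (πα p).1 = (πα p).2 := by
    intro p hp
    simp only [hal]
    rw [hπn p hp, Int.toNat_natCast]
  have hinj : Set.InjOn (fun p => (πα p).1) (P0' ∪ P' : Finset ℕ) := by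
    intro p hp q hq hpq
    have h1 := hπn p hp
    have h2 := hπn q hq
    simp only at hpq
    rw [hpq, h2] at h1
    exact_mod_cast h1.symm
  have hsub0 : P0' ⊆ P0' ∪ P' := Finset.subset_union_left
  have hsub1 : P' ⊆ P0' ∪ P' := Finset.subset_union_right
  have hinj0 : Set.InjOn (fun p => (πα p).1) P0' := hinj.mono (by exact_mod_cast hsub0)
  have hinj1 : Set.InjOn (fun p => (πα p).1) P' := hinj.mono (by exact_mod_cast hsub1)
  have hth : ∀ p ∈ P0' ∪ P', (th al (πα p).1).re = fx ⟨p, cc p⟩ ∧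
      -(th al (πα p).1).im = fy r ⟨p, cc p⟩ := by
    intro p hp
    have h1 := th_coord (c := (cc p : ℤ)) (r := r p) (p := p) (th al (πα p).1) (by
      rw [R2.H116.th, hal1 p hp]; exact hπc p hp)
    simp only [fx, fy]
    push_cast at h1
    exact h1
  have hlvl : ∀ (q : ℕ) (R' : Finset ℕ), R' ⊆ P0' ∪ P' →
      (∀ p ∈ R', q ≤ 2 * p ∧ p ≤ q) → (q : ℝ) ≤ Λ * R'.card →
      Lvl Λ q (R'.image (fun p => (πα p).1)) al := by
    intro q R' hRU hq hqc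
    refine ⟨?_, ?_, ?_, ?_, ?_, ?_⟩
    · intro π hπ
      obtain ⟨p, hp, rfl⟩ := Finset.mem_image.1 hπ
      exact hπp p (hRU hp)
    · intro π hπ
      obtain ⟨p, hp, rfl⟩ := Finset.mem_image.1 hπ
      rw [hπn p (hRU hp)]
      exact_mod_cast (hq p hp).1
    · intro π hπ
      obtain ⟨p, hp, rfl⟩ := Finset.mem_image.1 hπ
      rw [hπn p (hRU hp)]
      exact_mod_cast (hq p hp).2
    · intro π hπ π' hπ' h
      obtain ⟨p, hp, rfl⟩ := Finset.mem_image.1 hπ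
      obtain ⟨p', hp', rfl⟩ := Finset.mem_image.1 hπ'
      rw [hπn p (hRU hp), hπn p' (hRU hp')] at h
      have : p = p' := by exact_mod_cast h
      rw [this]
    · intro π hπ
      obtain ⟨p, hp, rfl⟩ := Finset.mem_image.1 hπ
      rw [hal1 p (hRU hp)]
      exact hπd p (hRU hp)
    · rw [Finset.card_image_of_injOn (hinj.mono (by exact_mod_cast hRU))]
      exact hqc
  refine ⟨P0'.image (fun p => (πα p).1), P'.image (fun p => (πα p).1), al,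
    hlvl Q0 P0' hsub0 h0.rng h0.many, hlvl Q P' hsub1 h1.rng h1.many, ?_⟩
  rw [Finset.card_image_of_injOn hinj0, Finset.card_image_of_injOn hinj1, Finset.sum_image hinj0]
  have hterm : ∀ p ∈ P0', ∀ ρ ∈ P', ‖hc W (th al (πα ρ).1 - th al (πα p).1)‖ =
      ‖hg W (fx ⟨ρ, c1 ρ⟩ - fx ⟨p, c0 p⟩) (fy r ⟨ρ, c1 ρ⟩ - fy r ⟨p, c0 p⟩)‖ := by
    intro p hp ρ hρ
    obtain ⟨h1, h2⟩ := hth p (hsub0 hp)
    obtain ⟨h3, h4⟩ := hth ρ (hsub1 hρ)
    rw [hcc0 p hp] at h1 h2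
    rw [hcc1 ρ hρ] at h3 h4
    rw [hc, Complex.sub_re, Complex.sub_im, h1, h3, ← h2, ← h4]
    congr 2
    ring
  calc (W.card : ℝ) * P0'.card * P'.card = ∑ ρ ∈ P', (W.card : ℝ) * P0'.card := by
        rw [Finset.sum_const, nsmul_eq_mul]; ring
    _ ≤ ∑ ρ ∈ P', Λ * ∑ p ∈ P0',
        ‖hg W (fx ⟨ρ, c1 ρ⟩ - fx ⟨p, c0 p⟩) (fy r ⟨ρ, c1 ρ⟩ - fy r ⟨p, c0 p⟩)‖ :=
        Finset.sum_le_sum hρ
    _ = Λ * ∑ p ∈ P0', ∑ ρ ∈ P'.image (fun p => (πα p).1),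
        ‖hc W (th al ρ - th al (πα p).1)‖ := by
        rw [← Finset.mul_sum, Finset.sum_comm]
        congr 1
        refine Finset.sum_congr rfl fun p hp => ?_
        rw [Finset.sum_image hinj1]
        exact Finset.sum_congr rfl fun ρ hρ => (hterm p hp ρ hρ).symm

end Vale.Agent.P015.H141
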