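import Vale.Agent.P015.H141.Defs

/-! Pruning: an upper regular set which meets few cells contains a large lower regular subset. -/

namespace Vale.Agent.P015.H141

open Finset Vale.Agent.P006.CLS Vale.Agent.P015.H222 Vale.Agent.P015.R2.H116

/-- potential: total threshold of the cells met, over the dyadic scales -/
noncomputable def pot (I : ℕ) (δ : ℝ) (V : Finset (ℤ × ℤ)) : ℝ :=
  ∑ i ∈ range I, ((V.image (R2.H116.cell (2 ^ i))).card : ℝ) * (δ * 2 ^ i)

theorem pot_mono {I : ℕ} {δ : ℝ} (hδ : 0 ≤ δ) {V W : Finset (ℤ × ℤ)} (h : V ⊆ W) :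
    pot I δ V ≤ pot I δ W := by
  unfold pot
  refine Finset.sum_le_sum fun i _ => mul_le_mul_of_nonneg_right ?_ (by positivity)
  exact_mod_cast Finset.card_le_card (Finset.image_subset_image h)

/-- every cell at every dyadic scale is empty or has many points -/
def Good (I : ℕ) (δ : ℝ) (V : Finset (ℤ × ℤ)) : Prop :=
  ∀ w ∈ V, ∀ i < I, δ * 2 ^ i ≤
    ((V.filter (fun u => R2.H116.cell (2 ^ i) u = R2.H116.cell (2 ^ i) w)).card : ℝ)

theorem exists_good (I : ℕ) {δ : ℝ} (hδ : 0 ≤ δ) (V : Finset (ℤ × ℤ)) :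
    ∃ V' ⊆ V, Good I δ V' ∧ ((V \ V').card : ℝ) ≤ pot I δ V - pot I δ V' := by
  induction V using Finset.strongInduction with
  | H V ih =>
    by_cases hg : Good I δ V
    · exact ⟨V, Subset.rfl, hg, by simp⟩
    · unfold Good at hg
      push Not at hg
      obtain ⟨w, hw, i, hi, hlt⟩ := hg
      set V₁ := V.filter (fun u => R2.H116.cell (2 ^ i) u ≠ R2.H116.cell (2 ^ i) w) with hV₁
      have hss : V₁ ⊂ V := by
        refine Finset.filter_ssubset.2 ⟨w, hw, by simp⟩
      obtain ⟨V', hV', hgood, hcard⟩ := ih V₁ hss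
      refine ⟨V', hV'.trans hss.1, hgood, ?_⟩
      have h1 : V \ V' ⊆ (V.filter (fun u => R2.H116.cell (2 ^ i) u = R2.H116.cell (2 ^ i) w)) ∪
          (V₁ \ V') := by
        intro u hu
        rw [mem_sdiff] at hu
        rw [mem_union, mem_filter, mem_sdiff, hV₁, mem_filter]
        by_cases h : R2.H116.cell (2 ^ i) u = R2.H116.cell (2 ^ i) w
        · exact Or.inl ⟨hu.1, h⟩
        · exact Or.inr ⟨⟨hu.1, h⟩, hu.2⟩
      have h2 : ((V \ V').card : ℝ) ≤
          ((V.filter (fun u => R2.H116.cell (2 ^ i) u = R2.H116.cell (2 ^ i) w)).card : ℝ) +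
          ((V₁ \ V').card : ℝ) := by
        exact_mod_cast (Finset.card_le_card h1).trans (Finset.card_union_le _ _)
      have h3 : pot I δ V₁ + δ * 2 ^ i ≤ pot I δ V := by
        unfold pot
        rw [← Finset.add_sum_erase _ _ (mem_range.2 hi), ← Finset.add_sum_erase _ _ (mem_range.2 hi)]
        have h4 : (((V₁.image (R2.H116.cell (2 ^ i))).card : ℝ) + 1) ≤
            ((V.image (R2.H116.cell (2 ^ i))).card : ℝ) := by
          have h5 : V₁.image (R2.H116.cell (2 ^ i)) ⊆
              (V.image (R2.H116.cell (2 ^ i))).erase (R2.H116.cell (2 ^ i) w) := by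
            intro c hc
            obtain ⟨u, hu, rfl⟩ := mem_image.1 hc
            rw [hV₁, mem_filter] at hu
            exact mem_erase.2 ⟨hu.2, mem_image_of_mem _ hu.1⟩
          have h6 := Finset.card_le_card h5
          rw [Finset.card_erase_of_mem (mem_image_of_mem _ hw)] at h6
          have h7 : 0 < (V.image (R2.H116.cell (2 ^ i))).card :=
            Finset.card_pos.2 ⟨_, mem_image_of_mem _ hw⟩
          have h8 : (V₁.image (R2.H116.cell (2 ^ i))).card + 1 ≤
              (V.image (R2.H116.cell (2 ^ i))).card := by omega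
          exact_mod_cast h8
        have h5 : ∑ j ∈ (range I).erase i, ((V₁.image (R2.H116.cell (2 ^ j))).card : ℝ) *
            (δ * 2 ^ j) ≤ ∑ j ∈ (range I).erase i, ((V.image (R2.H116.cell (2 ^ j))).card : ℝ) *
            (δ * 2 ^ j) := by
          refine Finset.sum_le_sum fun j _ => mul_le_mul_of_nonneg_right ?_ (by positivity)
          exact_mod_cast Finset.card_le_card (Finset.image_subset_image hss.1)
        have h6 : 0 ≤ δ * 2 ^ i := by positivity
        nlinarith
      linarith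

/-- **Pruning.** -/
theorem prune {W : Finset (ℤ × ℤ)} {K : ℕ} {Λ : ℝ} (h : Up W K Λ) (t : ℕ)
    (hW : 2 * (K : ℝ) ≤ Λ ^ t * W.card) :
    ∃ V ⊆ W, ((W \ V).card : ℝ) * Λ ^ t ≤ K ∧ Cv V K (Λ ^ (t + 3)) := by
  have hΛ := h.ten
  have hΛ0 : 0 < Λ := by linarith
  have hΛ1 : 1 ≤ Λ := by linarith
  set δ : ℝ := 1 / Λ ^ (t + 2) with hδ
  have hδ0 : 0 < δ := by positivity
  obtain ⟨V, hVW, hgood, hcard⟩ := exists_good (Nat.log 2 K + 1) hδ0.le W
  have hpot0 : 0 ≤ pot (Nat.log 2 K + 1) δ V :=
    Finset.sum_nonneg fun i _ => by positivity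
  have hpot : pot (Nat.log 2 K + 1) δ W ≤ Λ ^ 2 * K * δ := by
    have hK := h.pos
    unfold pot
    calc ∑ i ∈ range (Nat.log 2 K + 1), ((W.image (R2.H116.cell (2 ^ i))).card : ℝ) * (δ * 2 ^ i)
        ≤ ∑ i ∈ range (Nat.log 2 K + 1), (Λ * K) * δ := by
          refine Finset.sum_le_sum fun i hi => ?_
          have hi' : 2 ^ i ≤ K := by
            refine Nat.pow_le_of_le_log (by omega) ?_
            rw [mem_range] at hi
            omega
          have h1 := h.cells (2 ^ i) Nat.one_le_two_pow hi'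
          push_cast at h1
          calc ((W.image (R2.H116.cell (2 ^ i))).card : ℝ) * (δ * 2 ^ i)
              = (2 ^ i * ((W.image (R2.H116.cell (2 ^ i))).card : ℝ)) * δ := by ring
            _ ≤ (Λ * K) * δ := mul_le_mul_of_nonneg_right h1 hδ0.le
      _ = ((Nat.log 2 K : ℝ) + 1) * ((Λ * K) * δ) := by
          rw [Finset.sum_const, card_range, nsmul_eq_mul]; push_cast; ring
      _ ≤ Λ * ((Λ * K) * δ) := mul_le_mul_of_nonneg_right h.lg (by positivity)
      _ = Λ ^ 2 * K * δ := by ring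
  have hloss : ((W \ V).card : ℝ) * Λ ^ t ≤ K := by
    have h1 : ((W \ V).card : ℝ) ≤ Λ ^ 2 * K * δ := by linarith
    calc ((W \ V).card : ℝ) * Λ ^ t ≤ Λ ^ 2 * K * δ * Λ ^ t :=
          mul_le_mul_of_nonneg_right h1 (by positivity)
      _ = K := by
        rw [hδ, pow_add]
        field_simp
  have hΛt : Λ ≤ Λ ^ (t + 3) := le_self_pow₀ hΛ1 (by omega)
  have hVc : ((W \ V).card : ℝ) + V.card = W.card := by
    exact_mod_cast Finset.card_sdiff_add_card_eq_card hVW
  refine ⟨V, hVW, hloss, ⟨by linarith, h.c0.trans hΛt, fun w hw => h.sub w (hVW hw), ?_, ?_, ?_⟩⟩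
  · have h1 : (K : ℝ) ≤ Λ ^ t * V.card := by
      rw [← hVc, mul_add] at hW
      linarith
    refine h1.trans (mul_le_mul_of_nonneg_right (pow_le_pow_right₀ hΛ1 (by omega)) (by positivity))
  · intro z m hm hmK
    have h1 : ((V.filter (fun w => w - z ∈ P006.CLS.box m)).card : ℝ) ≤
        ((W.filter (fun w => w - z ∈ P006.CLS.box m)).card : ℝ) := by
      exact_mod_cast Finset.card_le_card (Finset.filter_subset_filter _ hVW)
    exact h1.trans ((h.up z m hm hmK).trans (mul_le_mul_of_nonneg_right hΛt (by positivity)))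
  · intro w hw m hm
    rcases Nat.eq_zero_or_pos m with hm0 | hm0
    · subst hm0
      rw [Nat.cast_zero]
      positivity
    · have hi : Nat.log 2 m < Nat.log 2 K + 1 := by
        have := Nat.log_mono_right (b := 2) (show m ≤ K by omega)
        omega
      have h1 := hgood w hw _ hi
      have h2 : 2 ^ Nat.log 2 m ≤ m := Nat.pow_log_le_self 2 (by omega)
      have h3 : m < 2 ^ (Nat.log 2 m + 1) := Nat.lt_pow_succ_log_self (by norm_num) m
      have h4 : (m : ℝ) ≤ 2 * 2 ^ Nat.log 2 m := by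
        have : m ≤ 2 * 2 ^ Nat.log 2 m := by rw [pow_succ] at h3; omega
        exact_mod_cast this
      have h5 : ((V.filter (fun u => R2.H116.cell (2 ^ Nat.log 2 m) u =
          R2.H116.cell (2 ^ Nat.log 2 m) w)).card : ℝ) ≤
          ((V.filter (fun u => u - w ∈ P006.CLS.box m)).card : ℝ) := by
        refine Nat.cast_le.2 (Finset.card_le_card fun u hu => ?_)
        rw [mem_filter] at hu ⊢
        refine ⟨hu.1, ?_⟩
        set s : ℕ := 2 ^ Nat.log 2 m with hs
        have hs0 : (0 : ℤ) < s := by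
          have : 0 < s := by rw [hs]; positivity
          exact_mod_cast this
        have hsm : (s : ℤ) ≤ m := by exact_mod_cast h2
        have h6 := hu.2
        simp only [R2.H116.cell, Prod.mk.injEq] at h6
        have a1 := Int.emod_add_mul_ediv u.1 s
        have a2 := Int.emod_add_mul_ediv w.1 s
        have a3 := Int.emod_nonneg u.1 hs0.ne'
        have a4 := Int.emod_nonneg w.1 hs0.ne'
        have a5 := Int.emod_lt_of_pos u.1 hs0
        have a6 := Int.emod_lt_of_pos w.1 hs0
        have b1 := Int.emod_add_mul_ediv u.2 s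
        have b2 := Int.emod_add_mul_ediv w.2 s
        have b3 := Int.emod_nonneg u.2 hs0.ne'
        have b4 := Int.emod_nonneg w.2 hs0.ne'
        have b5 := Int.emod_lt_of_pos u.2 hs0
        have b6 := Int.emod_lt_of_pos w.2 hs0
        rw [h6.1] at a1
        rw [h6.2] at b1
        simp only [P006.CLS.box, mem_product, mem_Icc, Prod.fst_sub, Prod.snd_sub]
        refine ⟨⟨?_, ?_⟩, ?_, ?_⟩ <;> linarith
      have h6 : Λ ^ (t + 2) * (δ * 2 ^ Nat.log 2 m) = 2 ^ Nat.log 2 m := by
        rw [hδ]; field_simp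
      have h7 : (2 : ℝ) ^ Nat.log 2 m ≤ Λ ^ (t + 2) *
          ((V.filter (fun u => u - w ∈ P006.CLS.box m)).card : ℝ) := by
        rw [← h6]
        exact mul_le_mul_of_nonneg_left (h1.trans h5) (by positivity)
      calc (m : ℝ) ≤ 2 * 2 ^ Nat.log 2 m := h4
        _ ≤ 2 * (Λ ^ (t + 2) * ((V.filter (fun u => u - w ∈ P006.CLS.box m)).card : ℝ)) := by linarith
        _ ≤ Λ * (Λ ^ (t + 2) * ((V.filter (fun u => u - w ∈ P006.CLS.box m)).card : ℝ)) :=
            mul_le_mul_of_nonneg_right (by linarith) (by positivity)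
        _ = _ := by ring

end Vale.Agent.P015.H141
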