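import Vale.Agent.P015.H141.Bridge

/-! Steps of the two-level contradiction. -/

namespace Vale.Agent.P015.H141

open Finset Vale.Agent.P006.CLS Vale.Agent.P015.H222 Vale.Agent.P015.R2.H116
  Vale.Agent.P015.R2.H731

open scoped ComplexConjugate

theorem Law.mono {Λ Λ' : ℝ} {P P' : Finset ℕ} {q : ∀ p : ℕ, ZMod p → ℝ} (h : Law Λ P q)
    (hΛ : Λ ≤ Λ') (hP : P' ⊆ P) : Law Λ' P' q :=
  ⟨fun p hp => h.nonneg p (hP hp), fun p hp => h.one p (hP hp),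
    fun p hp c => (h.sup p (hP hp) c).trans hΛ⟩

theorem Lev.sub {Λ Λ' : ℝ} {r : ℕ → ℤ} {Q : ℕ} {P P' : Finset ℕ} (h : Lev Λ r Q P)
    (hP : P' ⊆ P) (hm : (Q : ℝ) ≤ Λ' * P'.card) : Lev Λ' r Q P' :=
  ⟨fun p hp => h.rts p (hP hp), fun p hp => h.rng p (hP hp), hm⟩

theorem qa_nonneg {Λ : ℝ} {P : Finset ℕ} {q : ∀ p : ℕ, ZMod p → ℝ} (h : Law Λ P q)
    (r : ℕ → ℤ) {p : ℕ} (hp : p ∈ P) (w : ℤ × ℤ) : 0 ≤ (p : ℝ) * qa r q p w :=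
  mul_nonneg (Nat.cast_nonneg _) (h.nonneg p hp _)

theorem qa_le {Λ : ℝ} {P : Finset ℕ} {q : ∀ p : ℕ, ZMod p → ℝ} (h : Law Λ P q)
    (r : ℕ → ℤ) {p : ℕ} (hp : p ∈ P) (w : ℤ × ℤ) : (p : ℝ) * qa r q p w ≤ Λ :=
  h.sup p hp _

theorem abs_g_le {Λ : ℝ} (hΛ : 1 ≤ Λ) {P : Finset ℕ} {q : ∀ p : ℕ, ZMod p → ℝ} (h : Law Λ P q)
    (r : ℕ → ℤ) {p : ℕ} (hp : p ∈ P) (w : ℤ × ℤ) : |1 - (p : ℝ) * qa r q p w| ≤ Λ := by
  have h1 := qa_nonneg h r hp w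
  have h2 := qa_le h r hp w
  rw [abs_le]
  constructor <;> linarith

/-- unimodular alignment -/
theorem exists_align (S : ℕ → ℂ) : ∃ ε : ℕ → ℂ, (∀ p, ‖ε p‖ ≤ 1) ∧ ∀ p, ε p * S p = ‖S p‖ := by
  refine ⟨fun p => conj (S p) / ‖S p‖, fun p => ?_, fun p => ?_⟩
  · rw [norm_div, Complex.norm_conj, Complex.norm_real, norm_norm]
    exact div_self_le_one _
  · rcases eq_or_ne (S p) 0 with h | h
    · simp [h]
    · have h1 : (‖S p‖ : ℂ) ≠ 0 := by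
        rw [Ne, Complex.ofReal_eq_zero, norm_eq_zero]; exact h
      rw [div_mul_eq_mul_div, div_eq_iff h1, ← sq, mul_comm, Complex.mul_conj,
        Complex.normSq_eq_norm_sq]
      push_cast
      rfl

/-- first step: product of the two levels has large mean -/
theorem prod_mean {Λ : ℝ} {W : Finset (ℤ × ℤ)} {r : ℕ → ℤ} {P₀ P : Finset ℕ}
    {q₀ q : ∀ p : ℕ, ZMod p → ℝ} (l0 : Law Λ P₀ q₀) (l1 : Law Λ P q)
    (h0 : ∀ p ∈ P₀, 8 * p * ∑ w ∈ W, qa r q₀ p w ≤ W.card)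
    (h1 : ∀ p ∈ P, 8 * p * ∑ w ∈ W, qa r q p w ≤ W.card) {π ρ : ℕ} (hπ : π ∈ P₀) (hρ : ρ ∈ P) :
    3 / 4 * (W.card : ℝ) ≤ ∑ w ∈ W, (1 - (π : ℝ) * qa r q₀ π w) * (1 - (ρ : ℝ) * qa r q ρ w) := by
  have e : ∑ w ∈ W, (1 - (π : ℝ) * qa r q₀ π w - (ρ : ℝ) * qa r q ρ w) ≤
      ∑ w ∈ W, (1 - (π : ℝ) * qa r q₀ π w) * (1 - (ρ : ℝ) * qa r q ρ w) := by
    refine Finset.sum_le_sum fun w _ => ?_
    have a1 := qa_nonneg l0 r hπ w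
    have a2 := qa_nonneg l1 r hρ w
    nlinarith [mul_nonneg a1 a2]
  have e2 : ∑ w ∈ W, (1 - (π : ℝ) * qa r q₀ π w - (ρ : ℝ) * qa r q ρ w) =
      W.card - (π : ℝ) * ∑ w ∈ W, qa r q₀ π w - (ρ : ℝ) * ∑ w ∈ W, qa r q ρ w := by
    rw [Finset.sum_sub_distrib, Finset.sum_sub_distrib, Finset.mul_sum, Finset.mul_sum]
    simp
  have a := h0 π hπ
  have b := h1 ρ hρ
  linarith

/-- the normalised average of the functions of the upper level -/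
noncomputable def GG (Λ : ℝ) (r : ℕ → ℤ) (P : Finset ℕ) (q : ∀ p : ℕ, ZMod p → ℝ)
    (w : ℤ × ℤ) : ℝ := 1 / (Λ * P.card) * ∑ ρ ∈ P, (1 - (ρ : ℝ) * qa r q ρ w)

theorem GG_le {Λ : ℝ} (hΛ : 1 ≤ Λ) {P : Finset ℕ} {q : ∀ p : ℕ, ZMod p → ℝ} (h : Law Λ P q)
    (hP : (0 : ℝ) < P.card) (r : ℕ → ℤ) (w : ℤ × ℤ) : |GG Λ r P q w| ≤ 1 := by
  have hΛ0 : 0 < Λ := by linarith
  rw [GG, abs_mul, abs_of_nonneg (by positivity), one_div, inv_mul_le_iff₀ (by positivity), mul_one]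
  refine (Finset.abs_sum_le_sum_abs _ _).trans ?_
  calc ∑ ρ ∈ P, |1 - (ρ : ℝ) * qa r q ρ w| ≤ ∑ ρ ∈ P, Λ :=
        Finset.sum_le_sum fun ρ hρ => abs_g_le hΛ h r hρ w
    _ = Λ * P.card := by rw [Finset.sum_const, nsmul_eq_mul]; ring

theorem GG_first {Λ : ℝ} (hΛ : 10 ≤ Λ) {W : Finset (ℤ × ℤ)} {r : ℕ → ℤ} {P₀ P : Finset ℕ}
    {q₀ q : ∀ p : ℕ, ZMod p → ℝ} (l0 : Law Λ P₀ q₀) (l1 : Law Λ P q) (hP : (0 : ℝ) < P.card)
    (h0 : ∀ p ∈ P₀, 8 * p * ∑ w ∈ W, qa r q₀ p w ≤ W.card)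
    (h1 : ∀ p ∈ P, 8 * p * ∑ w ∈ W, qa r q p w ≤ W.card) {p : ℕ} (hp : p ∈ P₀) :
    (W.card : ℝ) ≤ Λ ^ 2 *
      ‖∑ w ∈ W, ((GG Λ r P q w : ℝ) : ℂ) * ((1 - p * qa r q₀ p w : ℝ) : ℂ)‖ := by
  have hΛ0 : 0 < Λ := by linarith
  have e1 : ∑ w ∈ W, ((GG Λ r P q w : ℝ) : ℂ) * ((1 - p * qa r q₀ p w : ℝ) : ℂ) =
      ((∑ w ∈ W, GG Λ r P q w * (1 - p * qa r q₀ p w) : ℝ) : ℂ) := by
    rw [Complex.ofReal_sum]
    exact Finset.sum_congr rfl fun w _ => (Complex.ofReal_mul _ _).symm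
  have h2 : ∑ w ∈ W, GG Λ r P q w * (1 - p * qa r q₀ p w) =
      1 / (Λ * P.card) * ∑ ρ ∈ P, ∑ w ∈ W, (1 - (p : ℝ) * qa r q₀ p w) *
        (1 - (ρ : ℝ) * qa r q ρ w) := by
    rw [Finset.sum_comm, Finset.mul_sum]
    refine Finset.sum_congr rfl fun w _ => ?_
    rw [← Finset.mul_sum, GG]
    ring
  have h3 : 3 / 4 * (W.card : ℝ) * P.card ≤ ∑ ρ ∈ P, ∑ w ∈ W, (1 - (p : ℝ) * qa r q₀ p w) *
        (1 - (ρ : ℝ) * qa r q ρ w) := by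
    calc 3 / 4 * (W.card : ℝ) * P.card = ∑ ρ ∈ P, 3 / 4 * (W.card : ℝ) := by
          rw [Finset.sum_const, nsmul_eq_mul]; ring
      _ ≤ _ := Finset.sum_le_sum fun ρ hρ => prod_mean l0 l1 h0 h1 hp hρ
  have h4 : 3 / 4 * (W.card : ℝ) / Λ ≤ ∑ w ∈ W, GG Λ r P q w * (1 - p * qa r q₀ p w) := by
    rw [h2]
    calc 3 / 4 * (W.card : ℝ) / Λ = 1 / (Λ * P.card) * (3 / 4 * (W.card : ℝ) * P.card) := by
          field_simp
      _ ≤ _ := mul_le_mul_of_nonneg_left h3 (by positivity)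
  rw [e1, Complex.norm_real]
  have h5 := h4.trans (le_abs_self _)
  have h6 : (W.card : ℝ) ≤ Λ ^ 2 * (3 / 4 * (W.card : ℝ) / Λ) := by
    have e : Λ ^ 2 * (3 / 4 * (W.card : ℝ) / Λ) = 3 / 4 * Λ * W.card := by field_simp
    rw [e]
    nlinarith [(Nat.cast_nonneg W.card : (0 : ℝ) ≤ W.card)]
  exact h6.trans (mul_le_mul_of_nonneg_left h5 (by positivity))

/-- average of aligned characters -/
noncomputable def FF (P : Finset ℕ) (ε : ℕ → ℂ) (x y : ℕ → ℝ) (w : ℤ × ℤ) : ℂ :=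
  (1 / (P.card : ℂ)) * ∑ p ∈ P, ε p * e2 (x p) (y p) w

theorem FF_le {P : Finset ℕ} (hP : (0 : ℝ) < P.card) {ε : ℕ → ℂ} (hε : ∀ p, ‖ε p‖ ≤ 1)
    (x y : ℕ → ℝ) (w : ℤ × ℤ) : ‖FF P ε x y w‖ ≤ 1 := by
  rw [FF, norm_mul, norm_div, norm_one, Complex.norm_natCast, one_div, inv_mul_le_iff₀ hP, mul_one]
  refine (norm_sum_le _ _).trans ?_
  calc ∑ p ∈ P, ‖ε p * e2 (x p) (y p) w‖ ≤ ∑ p ∈ P, (1 : ℝ) := by
        refine Finset.sum_le_sum fun p _ => ?_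
        rw [norm_mul, norm_e2, mul_one]
        exact hε p
    _ = P.card := by simp

theorem exists_FF {W : Finset (ℤ × ℤ)} {P : Finset ℕ} (hP : (0 : ℝ) < P.card) (G : ℤ × ℤ → ℂ)
    (x y : ℕ → ℝ) {X : ℝ} (h : ∀ p ∈ P, (W.card : ℝ) ≤ X * ‖∑ w ∈ W, G w * e2 (x p) (y p) w‖) :
    ∃ ε : ℕ → ℂ, (∀ p, ‖ε p‖ ≤ 1) ∧
      (W.card : ℝ) ≤ X * ‖∑ w ∈ W, G w * FF P ε x y w‖ := by
  obtain ⟨ε, hε1, hεS⟩ := exists_align (fun p => ∑ w ∈ W, G w * e2 (x p) (y p) w)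
  refine ⟨ε, hε1, ?_⟩
  have hGF : ∑ w ∈ W, G w * FF P ε x y w =
      ((1 / (P.card : ℝ) * ∑ p ∈ P, ‖∑ w ∈ W, G w * e2 (x p) (y p) w‖ : ℝ) : ℂ) := by
    have h1 : ∀ w ∈ W, G w * FF P ε x y w = ∑ p ∈ P, (1 / (P.card : ℂ)) *
        (ε p * (G w * e2 (x p) (y p) w)) := by
      intro w _
      rw [FF, Finset.mul_sum, Finset.mul_sum]
      exact Finset.sum_congr rfl fun p _ => by ring
    rw [Finset.sum_congr rfl h1, Finset.sum_comm]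
    push_cast
    rw [Finset.mul_sum]
    refine Finset.sum_congr rfl fun p _ => ?_
    rw [← Finset.mul_sum, ← Finset.mul_sum, hεS p]
  rw [hGF, Complex.norm_real, Real.norm_of_nonneg (by positivity)]
  have h1 : (P.card : ℝ) * W.card ≤ X * ∑ p ∈ P, ‖∑ w ∈ W, G w * e2 (x p) (y p) w‖ := by
    rw [Finset.mul_sum, ← nsmul_eq_mul]
    exact Finset.card_nsmul_le_sum P _ _ fun p hp => h p hp
  rw [mul_left_comm, one_div, ← div_eq_inv_mul, le_div_iff₀ hP]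
  linarith

/-- many primes of the upper level correlate with `F` -/
theorem many_corr {Λ X : ℝ} (hΛ : 1 ≤ Λ) (hX : 1 ≤ X) {W : Finset (ℤ × ℤ)}
    (hW : (0 : ℝ) < W.card) {r : ℕ → ℤ} {P : Finset ℕ} (hP : (0 : ℝ) < P.card)
    {q : ∀ p : ℕ, ZMod p → ℝ} (l1 : Law Λ P q) {F : ℤ × ℤ → ℂ} (hF : ∀ w, ‖F w‖ ≤ 1)
    (h : (W.card : ℝ) ≤ X * ‖∑ w ∈ W, ((GG Λ r P q w : ℝ) : ℂ) * F w‖) :
    (P.card : ℝ) ≤ 2 * X * (P.filter (fun ρ => (W.card : ℝ) ≤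
      2 * X * ‖∑ w ∈ W, F w * ((1 - ρ * qa r q ρ w : ℝ) : ℂ)‖)).card := by
  have hΛ0 : 0 < Λ := by linarith
  have hX0 : 0 < X := by linarith
  have hswap : ∑ w ∈ W, ((GG Λ r P q w : ℝ) : ℂ) * F w = ((1 / (Λ * P.card) : ℝ) : ℂ) * ∑ ρ ∈ P,
      ∑ w ∈ W, F w * ((1 - ρ * qa r q ρ w : ℝ) : ℂ) := by
    rw [Finset.sum_comm, Finset.mul_sum]
    refine Finset.sum_congr rfl fun w _ => ?_
    rw [← Finset.mul_sum, GG, Complex.ofReal_mul, Complex.ofReal_sum]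
    ring
  set T : ℕ → ℝ := fun ρ => ‖∑ w ∈ W, F w * ((1 - ρ * qa r q ρ w : ℝ) : ℂ)‖ with hT
  have hTsum : (W.card : ℝ) * (Λ * P.card) ≤ X * ∑ ρ ∈ P, T ρ := by
    have h1 : ‖∑ w ∈ W, ((GG Λ r P q w : ℝ) : ℂ) * F w‖ ≤ 1 / (Λ * P.card) * ∑ ρ ∈ P, T ρ := by
      rw [hswap, norm_mul, Complex.norm_real, Real.norm_of_nonneg (by positivity)]
      exact mul_le_mul_of_nonneg_left (norm_sum_le _ _) (by positivity)
    have h2 := h.trans (mul_le_mul_of_nonneg_left h1 hX0.le)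
    rw [mul_left_comm, one_div, ← div_eq_inv_mul, le_div_iff₀ (by positivity)] at h2
    exact h2
  have hTle : ∀ ρ ∈ P, T ρ ≤ Λ * W.card := by
    intro ρ hρ
    simp only [hT]
    refine (norm_sum_le _ _).trans ?_
    calc ∑ w ∈ W, ‖F w * ((1 - ρ * qa r q ρ w : ℝ) : ℂ)‖ ≤ ∑ w ∈ W, Λ := by
          refine Finset.sum_le_sum fun w _ => ?_
          rw [norm_mul, Complex.norm_real]
          calc ‖F w‖ * ‖1 - (ρ : ℝ) * qa r q ρ w‖ ≤ 1 * Λ :=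
                mul_le_mul (hF w) (abs_g_le hΛ l1 r hρ w) (norm_nonneg _) zero_le_one
            _ = Λ := one_mul _
      _ = Λ * W.card := by rw [Finset.sum_const, nsmul_eq_mul]; ring
  set P2 : Finset ℕ := P.filter (fun ρ => (W.card : ℝ) ≤ 2 * X * T ρ) with hP2
  have h1 : ∑ ρ ∈ P, T ρ ≤ P2.card * (Λ * W.card) + P.card * (W.card / (2 * X)) := by
    rw [← Finset.sum_filter_add_sum_filter_not P (fun ρ => (W.card : ℝ) ≤ 2 * X * T ρ)]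
    refine add_le_add ?_ ?_
    · rw [← nsmul_eq_mul]
      exact Finset.sum_le_card_nsmul _ _ _ fun ρ hρ => hTle ρ (Finset.filter_subset _ _ hρ)
    · have h2 : ∑ ρ ∈ P.filter (fun ρ => ¬ (W.card : ℝ) ≤ 2 * X * T ρ), T ρ ≤
          ((P.filter (fun ρ => ¬ (W.card : ℝ) ≤ 2 * X * T ρ)).card : ℝ) *
            (W.card / (2 * X)) := by
        rw [← nsmul_eq_mul]
        refine Finset.sum_le_card_nsmul _ _ _ fun ρ hρ => ?_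
        have h3 := (Finset.mem_filter.1 hρ).2
        rw [le_div_iff₀ (by positivity)]
        linarith
      refine h2.trans (mul_le_mul_of_nonneg_right ?_ (by positivity))
      exact_mod_cast Finset.card_le_card (Finset.filter_subset _ _)
  have h2 := hTsum.trans (mul_le_mul_of_nonneg_left h1 hX0.le)
  have h3 : X * (P2.card * (Λ * W.card) + P.card * (W.card / (2 * X))) =
      (X * P2.card * Λ + P.card / 2) * W.card := by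
    field_simp
  rw [h3] at h2
  have h4 : Λ * (P.card : ℝ) ≤ X * P2.card * Λ + P.card / 2 := by
    refine le_of_mul_le_mul_right ?_ hW
    linarith
  have h5 : (P.card : ℝ) / 2 ≤ Λ * P.card / 2 := by nlinarith
  have h6 : Λ * (P.card : ℝ) ≤ Λ * (2 * X * P2.card) := by linarith
  exact le_of_mul_le_mul_left h6 hΛ0

theorem norm_conj_sum (W : Finset (ℤ × ℤ)) (F : ℤ × ℤ → ℂ) (g : ℤ × ℤ → ℝ) :
    ‖∑ w ∈ W, conj (F w) * ((g w : ℝ) : ℂ)‖ = ‖∑ w ∈ W, F w * ((g w : ℝ) : ℂ)‖ := by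
  rw [← Complex.norm_conj, map_sum]
  congr 1
  refine Finset.sum_congr rfl fun w _ => ?_
  rw [map_mul, Complex.conj_conj, Complex.conj_ofReal]

end Vale.Agent.P015.H141
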