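import Vale.Agent.P015.H141.Steps
import Vale.Agent.P015.R2.H116.Coup3

/-! The two-level contradiction from the soft `L1` and the coupling theorem. -/

namespace Vale.Agent.P015.H141

open Finset Vale.Agent.P006.CLS Vale.Agent.P015.H222 Vale.Agent.P015.R2.H116
  Vale.Agent.P015.R2.H731

open scoped ComplexConjugate

theorem num_facts {Λ : ℝ} {K Q0 Q A : ℕ} (hΛ : 10 ≤ Λ) (hA : 1 ≤ A) (hΛQ0 : Λ ^ A ≤ Q0)
    (hQQ : Q0 ^ 3 ≤ Q) (hK : Q ^ 4 ≤ K) :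
    2 * Q0 < Q ∧ 16 * Q ^ 2 ≤ K ∧ 16 * Q0 ^ 2 ≤ K ∧ 1 ≤ K ∧ 10 ≤ Q0 ∧ 10 ≤ Q ∧ Q0 ≤ Q := by
  have hΛ1 : (1 : ℝ) ≤ Λ := by linarith
  have hQ0r : (10 : ℝ) ≤ Q0 := (hΛ.trans (le_self_pow₀ hΛ1 (by omega))).trans hΛQ0
  have hQ0n : 10 ≤ Q0 := by exact_mod_cast hQ0r
  have hQ0Q2 : Q0 ^ 2 ≤ Q := (Nat.pow_le_pow_right (by omega) (by norm_num)).trans hQQ
  have h2Q : 2 * Q0 < Q := by nlinarith
  have h100 : 100 ≤ Q := by nlinarith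
  have hQK : 16 * Q ^ 2 ≤ K := by
    calc 16 * Q ^ 2 ≤ Q ^ 2 * Q ^ 2 := Nat.mul_le_mul_right _ (by nlinarith)
      _ = Q ^ 4 := by ring
      _ ≤ K := hK
  have h3 : Q0 ^ 2 ≤ Q ^ 2 := Nat.pow_le_pow_left (by omega) 2
  exact ⟨h2Q, hQK, by omega, by nlinarith, hQ0n, by omega, by omega⟩

theorem card_pos_of_lev {Λ : ℝ} {r : ℕ → ℤ} {Q : ℕ} {P : Finset ℕ} (h : Lev Λ r Q P)
    (hQ : 1 ≤ Q) : (0 : ℝ) < P.card := by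
  rcases Nat.eq_zero_or_pos P.card with h1 | h1
  · have h2 := h.many
    rw [h1, Nat.cast_zero, mul_zero] at h2
    have h3 : (1 : ℝ) ≤ Q := by exact_mod_cast hQ
    linarith
  · exact_mod_cast h1

/-- The analytic half: from soft `L1` to frequencies at both levels. -/
theorem freqs (hS : SoftL1) : ∃ A : ℕ, 1 ≤ A ∧ ∀ (Λ : ℝ) (W : Finset (ℤ × ℤ)) (K Q₀ Q : ℕ),
    Cv W K Λ → ∀ (r : ℕ → ℤ) (P₀ P : Finset ℕ) (q₀ q : ∀ p : ℕ, ZMod p → ℝ),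
    Lev Λ r Q₀ P₀ → Lev Λ r Q P → Law Λ P₀ q₀ → Law Λ P q →
    (∀ p ∈ P₀, 8 * p * ∑ w ∈ W, qa r q₀ p w ≤ W.card) →
    (∀ p ∈ P, 8 * p * ∑ w ∈ W, qa r q p w ≤ W.card) →
    Λ ^ A ≤ Q₀ → Q₀ ^ 3 ≤ Q → Q ^ 4 ≤ K →
    ∃ (P₀' P' : Finset ℕ) (c₀ c₁ : ℕ → ℕ), Lev (Λ ^ A) r Q₀ P₀' ∧ Lev (Λ ^ A) r Q P' ∧
      (∀ p ∈ P₀', c₀ p ∈ Icc 1 (p - 1)) ∧ (∀ p ∈ P', c₁ p ∈ Icc 1 (p - 1)) ∧
      ∀ ρ ∈ P', (W.card : ℝ) * P₀'.card ≤ Λ ^ A * ∑ p ∈ P₀',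
        ‖hg W (fx ⟨ρ, c₁ ρ⟩ - fx ⟨p, c₀ p⟩) (fy r ⟨ρ, c₁ ρ⟩ - fy r ⟨p, c₀ p⟩)‖ := by
  classical
  obtain ⟨a, hL1⟩ := hS
  obtain ⟨b, hb⟩ : ∃ b : ℕ, b = 2 * a + 4 := ⟨_, rfl⟩
  obtain ⟨A, hA⟩ : ∃ A : ℕ, A = b * a + b + 2 * a + 2 := ⟨_, rfl⟩
  refine ⟨A, by omega, fun Λ W K Q0 Q hcv r P0 P q0 q hl0 hl1 law0 law1 hm0 hm1
    hΛQ0 hQQ hK => ?_⟩
  obtain ⟨h2Q, hQK, hQ0K, hK1, hQ010, hQ10, hQ0Q⟩ := num_facts hcv.ten (by omega) hΛQ0 hQQ hK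
  have hΛ10 := hcv.ten
  have hΛ1 : (1 : ℝ) ≤ Λ := by linarith
  have hΛ0 : (0 : ℝ) < Λ := by linarith
  have hpw : ∀ i j : ℕ, i ≤ j → Λ ^ i ≤ Λ ^ j := fun i j h => pow_le_pow_right₀ hΛ1 h
  have hWpos : (0 : ℝ) < W.card := by
    by_contra h
    have h1 : (W.card : ℝ) ≤ 0 := not_lt.mp h
    have h2 := hcv.size
    have h3 : (1 : ℝ) ≤ K := by exact_mod_cast hK1
    nlinarith
  have hPr := card_pos_of_lev hl1 (by omega)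
  have hP0r := card_pos_of_lev hl0 (by omega)
  have hΛ2 : Λ ≤ Λ ^ 2 := le_self_pow₀ hΛ1 (by norm_num)
  -- first application
  obtain ⟨P0', hP0's, hP0'c, hc0⟩ := hL1 (Λ ^ 2) W K Q0 (cv_mono hcv hΛ2) r P0
    (hl0.sub Subset.rfl (hl0.many.trans (mul_le_mul_of_nonneg_right hΛ2 (Nat.cast_nonneg _))))
    q0 (law0.mono hΛ2 Subset.rfl)
    (by rw [← pow_mul]; exact (hpw _ _ (by omega)).trans hΛQ0) hQ0K
    (fun w => ((GG Λ r P q w : ℝ) : ℂ))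
    (fun w => by rw [Complex.norm_real]; exact GG_le hΛ1 law1 hPr r w)
    (fun p hp => GG_first hΛ10 law0 law1 hPr hm0 hm1 hp)
  choose! c0 hc0m hc0b using hc0
  have hn0 : (0 : ℝ) < P0'.card := by
    have h1 : 0 < P0.card := by exact_mod_cast hP0r
    have h2 : 0 < P0'.card := by omega
    exact_mod_cast h2
  obtain ⟨ε, hε1, hF⟩ := exists_FF hn0 (fun w => ((GG Λ r P q w : ℝ) : ℂ))
    (fun p => fx ⟨p, c0 p⟩) (fun p => fy r ⟨p, c0 p⟩) (X := Λ ^ (2 * a))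
    (fun p hp => by have := hc0b p hp; rwa [← pow_mul] at this)
  obtain ⟨F, hFdef⟩ : ∃ F : ℤ × ℤ → ℂ, F = FF P0' ε (fun p => fx ⟨p, c0 p⟩)
    (fun p => fy r ⟨p, c0 p⟩) := ⟨_, rfl⟩
  rw [← hFdef] at hF
  have hF1 : ∀ w, ‖F w‖ ≤ 1 := by
    intro w
    rw [hFdef]
    exact FF_le hn0 hε1 _ _ w
  have hX1 : 1 ≤ Λ ^ (2 * a) := one_le_pow₀ hΛ1
  have hP2c := many_corr hΛ1 hX1 hWpos hPr law1 hF1 hF
  obtain ⟨P2, hP2⟩ : ∃ P2 : Finset ℕ, P2 = P.filter (fun ρ => (W.card : ℝ) ≤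
      2 * Λ ^ (2 * a) * ‖∑ w ∈ W, F w * ((1 - ρ * qa r q ρ w : ℝ) : ℂ)‖) := ⟨_, rfl⟩
  rw [← hP2] at hP2c
  have hP2s : P2 ⊆ P := by rw [hP2]; exact Finset.filter_subset _ _
  have hΛb : Λ ≤ Λ ^ b := le_self_pow₀ hΛ1 (by omega)
  have hb1 : 2 * Λ ^ (2 * a) ≤ Λ ^ b := by
    calc 2 * Λ ^ (2 * a) ≤ Λ * Λ ^ (2 * a) := mul_le_mul_of_nonneg_right (by linarith) (by positivity)
      _ = Λ ^ (2 * a + 1) := by ring
      _ ≤ Λ ^ b := hpw _ _ (by omega)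
  have hl2 : Lev (Λ ^ b) r Q P2 := by
    refine hl1.sub hP2s ?_
    calc (Q : ℝ) ≤ Λ * P.card := hl1.many
      _ ≤ Λ * (2 * Λ ^ (2 * a) * P2.card) := mul_le_mul_of_nonneg_left hP2c hΛ0.le
      _ = (2 * (Λ * Λ ^ (2 * a))) * P2.card := by ring
      _ ≤ Λ ^ b * P2.card := by
          refine mul_le_mul_of_nonneg_right ?_ (Nat.cast_nonneg _)
          calc 2 * (Λ * Λ ^ (2 * a)) ≤ Λ * (Λ * Λ ^ (2 * a)) :=
                mul_le_mul_of_nonneg_right (by linarith) (by positivity)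
            _ = Λ ^ (2 * a + 2) := by ring
            _ ≤ Λ ^ b := hpw _ _ (by omega)
  -- second application
  obtain ⟨P', hP's, hP'c, hc1⟩ := hL1 (Λ ^ b) W K Q (cv_mono hcv hΛb) r P2 hl2 q
    (law1.mono hΛb hP2s) (by
      rw [← pow_mul]
      refine ((hpw _ _ (by omega)).trans hΛQ0).trans ?_
      exact_mod_cast hQ0Q) hQK
    (fun w => conj (F w)) (fun w => by rw [Complex.norm_conj]; exact hF1 w) (by
      intro ρ hρ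
      rw [hP2] at hρ
      have h1 := (Finset.mem_filter.1 hρ).2
      rw [norm_conj_sum W F (fun w => 1 - ρ * qa r q ρ w)]
      exact h1.trans (mul_le_mul_of_nonneg_right hb1 (norm_nonneg _)))
  choose! c1 hc1m hc1b using hc1
  refine ⟨P0', P', c0, c1, ?_, ?_, hc0m, hc1m, ?_⟩
  · refine hl0.sub hP0's ?_
    have h1 : (P0.card : ℝ) ≤ 2 * P0'.card := by exact_mod_cast hP0'c
    calc (Q0 : ℝ) ≤ Λ * P0.card := hl0.many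
      _ ≤ Λ * (2 * P0'.card) := mul_le_mul_of_nonneg_left h1 hΛ0.le
      _ = (Λ * 2) * P0'.card := by ring
      _ ≤ Λ ^ A * P0'.card := by
          refine mul_le_mul_of_nonneg_right ?_ (Nat.cast_nonneg _)
          calc Λ * 2 ≤ Λ ^ 2 := by nlinarith
            _ ≤ Λ ^ A := hpw _ _ (by omega)
  · refine hl2.sub hP's ?_
    have h1 : (P2.card : ℝ) ≤ 2 * P'.card := by exact_mod_cast hP'c
    calc (Q : ℝ) ≤ Λ ^ b * P2.card := hl2.many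
      _ ≤ Λ ^ b * (2 * P'.card) := mul_le_mul_of_nonneg_left h1 (by positivity)
      _ = (2 * Λ ^ b) * P'.card := by ring
      _ ≤ Λ ^ A * P'.card := by
          refine mul_le_mul_of_nonneg_right ?_ (Nat.cast_nonneg _)
          calc 2 * Λ ^ b ≤ Λ * Λ ^ b := mul_le_mul_of_nonneg_right (by linarith) (by positivity)
            _ = Λ ^ (b + 1) := by ring
            _ ≤ Λ ^ A := hpw _ _ (by omega)
  · intro ρ hρ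
    have h1 := hc1b ρ hρ
    have h2 := norm_hg_sum_conj W P0' (fun p => fx ⟨p, c0 p⟩) (fun p => fy r ⟨p, c0 p⟩) ε hε1
      (fx ⟨ρ, c1 ρ⟩) (fy r ⟨ρ, c1 ρ⟩)
    rw [← pow_mul, hFdef] at h1
    have h3 := h1.trans (mul_le_mul_of_nonneg_left h2 (by positivity))
    rw [mul_left_comm, one_div, ← div_eq_inv_mul, le_div_iff₀ hn0] at h3
    refine h3.trans (mul_le_mul_of_nonneg_right (hpw _ _ (by omega)) ?_)
    exact Finset.sum_nonneg fun _ _ => norm_nonneg _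

theorem twoLevel (hS : SoftL1) : TwoLevel := by
  obtain ⟨e, he, hfr⟩ := freqs hS
  obtain ⟨a', hcoup⟩ := coupling
  refine ⟨e * a' + e, fun Λ W K Q0 Q hcv r P0 P q0 q hl0 hl1 law0 law1 hm0 hm1
    hΛQ0 hQQ hK => ?_⟩
  have hΛ10 := hcv.ten
  have hΛ1 : (1 : ℝ) ≤ Λ := by linarith
  obtain ⟨h2Q, -, -, -, -, -, -⟩ := num_facts hcv.ten (by omega) hΛQ0 hQQ hK
  have hpw : ∀ i j : ℕ, i ≤ j → Λ ^ i ≤ Λ ^ j := fun i j h => pow_le_pow_right₀ hΛ1 h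
  obtain ⟨P0', P', c0, c1, hl0', hl1', hc0m, hc1m, hρ⟩ := hfr Λ W K Q0 Q hcv r P0 P q0 q hl0 hl1
    law0 law1 hm0 hm1 ((hpw _ _ (by omega)).trans hΛQ0) hQQ hK
  have hΛe : Λ ≤ Λ ^ e := le_self_pow₀ hΛ1 (by omega)
  obtain ⟨Pi0, Pi, α, hL0, hL1', hsum⟩ := bridge2 (hΛ10.trans hΛe) h2Q hl0' hl1' hc0m hc1m hρ
  refine hcoup (Λ ^ e) W K Q0 Q (cv_mono hcv hΛe) Pi0 Pi α hL0 hL1' ?_ hQQ hK hsum
  rw [← pow_mul]
  exact (hpw _ _ (by omega)).trans hΛQ0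

end Vale.Agent.P015.H141
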